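import Vale.Agent.P161.MathlibUsed

open MeasureTheory

namespace Vale.Agent.P161

/-- `mu` is the free zero-field Ising measure on the tree `G` with edge correlation `θ`:
a probability measure on spin configurations such that for every finite set `D` of vertices
inducing a connected subgraph and every assignment `η` of spins,
`mu(σ = η on D) = 1/2 * ∏_{edges uv inside D} (1 + θ η_u η_v)/2`. -/
structure IsFreeIsing {V : Type*} (G : SimpleGraph V) (θ : ℝ) (μ : Measure (V → ℤˣ)) : Prop where
  isProb : IsProbabilityMeasure μ
  marginal : ∀ D : Finset V, (G.induce (D : Set V)).Connected → ∀ η : V → ℤˣ,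
    μ {σ | ∀ v ∈ D, σ v = η v} =
      ENNReal.ofReal (1 / 2 * ∏ e ∈ (open Classical in D.sym2.filter (fun e => e ∈ G.edgeSet)),
        (1 + θ * (((e.map η).mul : ℤ) : ℝ)) / 2)

/-- `ν` is a factor of IID: the image of i.i.d. uniform labels on `[0,1]` under a measurable map
which commutes almost surely with each fixed graph automorphism. -/
def IsFactorOfIID {V : Type*} (G : SimpleGraph V) (ν : Measure (V → ℤˣ)) : Prop :=
  ∃ Φ : (V → unitInterval) → (V → ℤˣ), Measurable Φ ∧
    (∀ g : G ≃g G, ∀ᵐ x ∂(Measure.infinitePi fun _ : V => (volume : Measure unitInterval)),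
      Φ (fun v => x (g.symm v)) = fun v => Φ x (g.symm v)) ∧
    Measure.map Φ (Measure.infinitePi fun _ : V => (volume : Measure unitInterval)) = ν

end Vale.Agent.P161
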