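import Mathlib.Algebra.Order.Chebyshev
import Mathlib.Algebra.Order.Field.GeomSum
import Mathlib.Algebra.Order.Quantale
import Mathlib.Algebra.Ring.IsFormallyReal
import Mathlib.Analysis.Complex.ExponentialBounds
import Mathlib.Analysis.Normed.Group.Tannery
import Mathlib.Analysis.SpecialFunctions.Integrals.Basic
import Mathlib.Analysis.SpecialFunctions.Trigonometric.DerivHyp
import Mathlib.CategoryTheory.Countable
import Mathlib.Combinatorics.SimpleGraph.Acyclic
import Mathlib.Data.Finset.DenselyOrdered
import Mathlib.LinearAlgebra.Complex.FiniteDimensional
import Mathlib.MeasureTheory.Function.Floor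
import Mathlib.MeasureTheory.Measure.HasOuterApproxClosed
import Mathlib.MeasureTheory.Measure.RegularityCompacts
import Mathlib.MeasureTheory.Order.Group.Lattice
import Mathlib.ModelTheory.Graph
import Mathlib.Order.CompletePartialOrder
import Mathlib.Probability.Independence.InfinitePi
import Mathlib.Probability.Kernel.Representation
import Mathlib.Probability.Moments.Basic
import Mathlib.RingTheory.Etale.Weakly
import Mathlib.RingTheory.Flat.TorsionFree
import Mathlib.RingTheory.TotallySplit
import Mathlib.Tactic
import Mathlib.Topology.Algebra.Order.Floor
import Mathlib.Topology.Algebra.ProperAction.Basic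
import Mathlib.Topology.UniformSpace.Uniformizable

/-! The part of Mathlib that the development of this folder uses. -/
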